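import Vale.Agent.P011N.F.Spec
import Vale.Agent.P011N.Iface2

/-!
The assembly of the blocks: abstract part.
-/

namespace Vale.Agent.P011N.F

open Vale.Agent.P011.H900 Vale.Agent.P011.H925.Full

theorem simp_of (hL : LGThm) {G : Type} [Group G] (h1 : HasGood G) (h2 : BigTop G) : Simp G := by
  obtain ⟨V, _, _, _, T, hT, ⟨e⟩⟩ := h1
  have h3 : BigTop T.grp := fun N hN => by
    rw [eq_top_iff]
    intro x _
    have h4 : e.symm x ∈ N.comap e.toMonoidHom := by rw [h2 _ (hN.comap _)]; trivial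
    simpa using h4
  intro N hN
  rcases hL V T hT h3 (N.comap e.symm.toMonoidHom) (hN.comap _) with h4 | h4
  · left
    intro x hx
    have h5 : e x ∈ N.comap e.symm.toMonoidHom := by simpa using hx
    rw [Subgroup.mem_center_iff]
    intro y
    apply e.injective
    rw [map_mul, map_mul]
    exact Subgroup.mem_center_iff.1 (h4 h5) _
  · right
    rw [eq_top_iff]
    intro x _
    have h5 : e x ∈ N.comap e.symm.toMonoidHom := by rw [h4]; trivial
    simpa using h5

theorem simple_of {V : Type} {P : (V → V) → Prop} (h : Simp (grp P)) : Simple P :=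
  fun N hN h1 => (h N hN).resolve_left h1

theorem mp_of {G H : Type} [Group G] [Group H] [TopologicalSpace H] {δ : G →* H} (h : Q1 δ)
    (hG : MF G) : MP δ :=
  ⟨h.1, fun N hN h1 => by
    obtain ⟨W, h2, h3, h4⟩ := h.2 N (hG N hN h1)
    exact ⟨W, h2, h4 hN, h3⟩⟩

theorem anisA_of {k K A : Type} [Field k] [Field K] [Algebra k K] [StarRing K] [Ring A]
    [StarRing A] [Algebra K A] {n : ℕ} (h : Anis k K A n) : AnisA k K A n :=
  ⟨h.fixed, h.star_ne, h.central, h.simple, h.le, h.rank, h.aniso⟩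

theorem mf_of (h1 : MFNF) (h2 : MFFF) {k K A Ω : Type} [Field k] [Field K] [Algebra k K]
    [StarRing K] [Ring A] [StarRing A] [Algebra k A] [Algebra K A] [IsScalarTower k K A]
    [StarModule K A] [Field Ω] [Algebra K Ω] {n : ℕ} (f : A →ₐ[K] Matrix (Fin n) (Fin n) Ω)
    (h : Anis k K A n) : MF (GK f) :=
  h.global.elim (fun _ => (h1 k K A Ω n f (anisA_of h)).1)
    fun hk => h2 k K A Ω n f hk (anisA_of h)

theorem clD3_simp (hL : LGThm) (h1 : ClD3 HasGood) (h2 : ClD3 BigTop) : ClD3 Simp :=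
  fun F _ _ r s a b c d q h => simp_of hL (h1 F r s a b c d q h) (h2 F r s a b c d q h)

theorem clD6_simp (hL : LGThm) (h1 : ClD6 HasGood) (h2 : ClD6 BigTop) : ClD6 Simp :=
  fun F _ _ r s i a b c d q h3 h4 h5 h6 h7 h8 =>
    simp_of hL (h1 F r s i a b c d q h3 h4 h5 h6 h7 h8) (h2 F r s i a b c d q h3 h4 h5 h6 h7 h8)

theorem clE3_simp (hL : LGThm) (h1 : ClE3A HasGood) (h2 : ClE3 BigTop) : ClE3A Simp :=
  fun F _ _ r s a b c e t g h3 h4 h5 h6 h7 h8 h9 =>
    simp_of hL (h1 F r s a b c e t g h3 h4 h5 h6 h7 h8 h9) (h2 F r s a b c e t g h3 h4 h5 h6 h7 h8)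

end Vale.Agent.P011N.F
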