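import Vale.Agent.P011N.N.Main
import Vale.Agent.P011N.NL.Main
import Vale.Agent.P011N.G1.Coc
import Vale.Agent.P011N.G2a.Opn
import Vale.Agent.P011N.G2c.Main
import Vale.Agent.P011N.G3.Main

/-!
The theorem on linear groups.
-/

namespace Vale.Agent.P011N.F

theorem nstloc : NSTloc := NL.nstloc N.nst

theorem lgThm : LGThm := G3.lgThm nstloc G1.discStmt G1.cocStmt G2a.opn G2c.bigOpen

end Vale.Agent.P011N.F
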