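import Vale.Agent.P011.H925.Full.NF
import Vale.Agent.P011.H925.Full.FFA
import Vale.Agent.P011N.F.Asm0
import Vale.Agent.P011N.F.LG
import Vale.Agent.P011N.A1.Fin
import Vale.Agent.P011N.A2.Main
import Vale.Agent.P011N.D1.Fin
import Vale.Agent.P011N.D2.Fin
import Vale.Agent.P011N.E0.Fin
import Vale.Agent.P011N.E1.Fin
import Vale.Agent.P011N.E2.Main

/-!
The assembly of the blocks.
-/

namespace Vale.Agent.P011N.F

open Vale.Agent.P011.H925.Full

theorem mfff : MFFF := A2.mfff N.nst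

theorem clA {k K A Ω : Type} [Field k] [Field K] [Algebra k K] [StarRing K] [Ring A]
    [StarRing A] [Algebra k A] [Algebra K A] [IsScalarTower k K A] [StarModule K A]
    [Field Ω] [Algebra K Ω] {n : ℕ} (f : A →ₐ[K] Matrix (Fin n) (Fin n) Ω) (h : Anis k K A n) :
    ∃ δ : GK f →* HA k K A n, (∀ g, Diag g.1.1 (δ g)) ∧ MP δ := by
  obtain ⟨δ, h1, h2⟩ := h.global.elim (fun hk => clauseA_nf hk h f)
    fun hk => clauseA h (old_ffa hk h.anis h.le f)
  exact ⟨δ, h1, mp_of h2 (mf_of A1.mfnf mfff f h)⟩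

theorem clD3 : ClD3 Simp := clD3_simp lgThm D2.blockD2.1 (D1.blockD1 A1.mfq).1

theorem clD6 : ClD6 Simp := clD6_simp lgThm D2.blockD2.2 (D1.blockD1 A1.mfq).2

theorem clE1 : ClE1 Simp := E0.clE1

theorem clE2 : ClE2 Simp := E0.clE2

theorem clE3A : ClE3A Simp := clE3_simp lgThm E2.clE3A (E1.clE3 A1.mfnf A1.mfq)

end Vale.Agent.P011N.F
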