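import Vale.Agent.P011.H900.SpecX
import Vale.Agent.P011.H925.Full.DefsA

/-!
The conclusions of the Margulis-Platonov conjecture.
-/

namespace Vale.Agent.P011N.F

/-- The homomorphism has dense image, and every normal subgroup which is not contained in the centre
is the preimage of an open normal subgroup. -/
def MP {G H : Type} [Group G] [Group H] [TopologicalSpace H] (δ : G →* H) : Prop :=
  DenseRange δ ∧ ∀ N : Subgroup G, N.Normal → ¬ N ≤ Subgroup.center G →
    ∃ W : Subgroup H, IsOpen (W : Set H) ∧ W.Normal ∧ N = W.comap δ

/-- Every normal subgroup of the group of the bijections with the property `P` is contained in the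
centre or is the whole group. -/
def Simple {V : Type} (P : (V → V) → Prop) : Prop :=
  ∀ N : Subgroup (Vale.Agent.P011.H900.grp P), N.Normal →
    ¬ N ≤ Subgroup.center (Vale.Agent.P011.H900.grp P) → N = ⊤

end Vale.Agent.P011N.F
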